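import Crest.Agent.X212.Wgt71.Main_Mg
import Crest.Agent.X212.Gnk31.Main
import Crest.Agent.X212.Hdg40.Main
import Crest.Agent.X212.Sw.Alg
import Crest.Agent.X212.Clo39.Cok

/-!
# Row 212, layer S: the closed statements of the radial lane
-/

set_option autoImplicit false

namespace Crest.Agent.X212.Top0
open Rad94

variable (κ lam ν : Type) [Fintype κ] [Fintype lam] [Fintype ν] [DecidableEq ν]

theorem genk : GenkStmt κ lam ν := Gnk31.genkStmt _ _ _ (Fre43.freStmt _ _) (Gnk31.rbStmt _ _ _)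

theorem ker : KerStmt κ lam ν :=
  kerStmt (Sw21.dirStmt _ _ _) (Fre43.freStmt _ _) (Wgt71.wgtStmt _ _) (Unb45.unb _ _) (genk _ _ _)
    (Gnk31.rbStmt _ _ _) (Gnk31.ucpStmt _ _)

theorem kerC : KerCStmt κ lam ν :=
  kerCStmt (Sw21.dirStmt _ _ _) (Fre43.freStmt _ _) (Wgt71.wgtStmt _ _) (Unb45.unb _ _) (genk _ _ _)
    (Gnk31.rbStmt _ _ _) (Gnk31.ucpStmt _ _) (Unb45.idx0 _ _)

theorem hdg : HdgStmt κ lam ν :=
  Hdg40.hdgStmt (Sw.Alg.algStmt _ _ _) (Fre43.freStmt _ _) (Clo39.clo _ _ _) (Clo39.cok _ _ _)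

end Crest.Agent.X212.Top0
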