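import Crest.Agent.X212.Sw87.MoR_Mg
import Crest.Agent.X212.Sw87.MoP
import Crest.Agent.X212.Rob53.Pz
import Crest.Agent.X212.Sm10.Res
import Crest.Agent.X212.Emo56.Iso
import Crest.Agent.X212.Emo56.Cgl
import Crest.Agent.X212.Emo56.Ext
import Crest.Agent.X212.Lr83.Lr
import Crest.Agent.X212.Lr83.Wl
import Crest.Agent.X212.Nrm43.Nrm
import Crest.Agent.X212.Nrm43.Tf
import Crest.Agent.X212.Sm10.Mh3_Mg
import Crest.Agent.X212.Emo56.Dd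
import Crest.Agent.X212.Lg40.Main_Mg
import Crest.Agent.X212.Gnk23.Fr
import Crest.Agent.X212.Gen6.Fl_Mg
import Crest.Agent.X212.Gen6.T
import Crest.Agent.X212.Cyc79.Eh
import Crest.Agent.X212.Cyc79.Eg
import Crest.Agent.X212.Cyl58.Sf
import Crest.Agent.X212.Cyl58.Ah
import Crest.Agent.X212.Mcg32.Pp
import Crest.Agent.X212.Loc8.Cap
import Crest.Agent.X212.Tm38.Fm
import Crest.Agent.X212.Qd31.Main

/-!
# Row 212, layer S: the open inputs of the engine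
-/

set_option autoImplicit false
noncomputable section

namespace Crest.Agent.X212.Top0
open Sw Flo2 Sw87.Mo

theorem genQ : End23.GenQStmt κ0 L0 ν0 :=
  Gen6.genQ (Cyc79.smaleStmt (Ah58.sfStmt _ _ _) Ah58.ahStmt) Cyc79.isoStmt
theorem gen : End23.GenStmt κ0 L0 ν0 := Lw78.Gn.gen genQ (Gen6.genT (Ah58.sfStmt _ _ _))
theorem enq (e₀ : En3 κ0 L0 ν0) : EnqStmt (mk0 e₀) := Enr44.enq gen genQ Lg40.lgQ Gnk23.psQ e₀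

theorem en : Nonempty (En3 κ0 L0 ν0) :=
  let ⟨_, A, _⟩ := Nv5.modStmt
  let ⟨e, he, _⟩ := Gnk23.psQ A
  ⟨Enr44.e0 (μ := μ0) ⟨A.toO3, Enr44.yd A.toO3 e he, 0⟩ ⟨0, 0, 0⟩ 0⟩

theorem enr (e₀ : En3 κ0 L0 ν0) : EnrStmt (mk0 e₀) := Enr44.enr gen Lg40.lgR Lg40.h2R Gnk23.prR e₀

theorem lf : Lf :=
  have p : PzStmt κ0 μ0 := Rob53.Pz.pzStmt _ _
  ⟨p, Fam33.okStmt p, Bd44.bd p, Sm10.Rs.resStmt, Sm10.Rs.cstStmt, Sm10.Rs.mixStmt, Emo56.bl, Sm10.Rs.pbStmt,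
    Sm10.Mi.isoStmt p, Emo56.exu _ _, Emo56.trp _ _ p, Lr83.lrStmt, Lr83.walStmt p, Emo56.glu _ _, Emo56.cgl _ _, Tw59.tw _ _, Tw59.hol _ _ p,
    Nrm43.nrm _, Nrm43.tf p, Nr51.nr _ _ p, Emo56.fing, Emo56.site, Emo56.em _⟩

theorem marks (e₀ : En3 κ0 L0 ν0) : Marks (mk0 e₀) := ⟨Rob53.Mu.mtpStmt e₀, Sm10.Mw.mhi (ker _ _ _) (hdg _ _ _) e₀, Sm10.Mw.mwc (ker _ _ _) (hdg _ _ _) e₀, 
    Rob53.Mu.muStmt e₀ (kerC _ _ _) (hdg _ _ _)⟩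

theorem eng (L : Geo28.Lvs) (an : ∀ e₀ : En3 κ0 L0 ν0, AnStmt (mk0 e₀)) :
    Geo28.EngStmt.{1} (QM Rad94.Ex1) :=
  engStmt lf marks (fun e₀ => pen ⟨lf, L, St29.Bw.bw lf, Tm38.As.fm _ lf, Tm38.As.ts _,
    Tm38.As.prp' _ lf L,
    St29.Bw.lrf, As6.asStmt⟩ (marks e₀) Loc8.Cap.cap Mcg32.Pp.pp Mcg32.Pp.lp (Emo56.dd _) Qd31.qdStmt (Emo56.gd _) sdStmt
    rdStmt (Emo56.kd' _) (Mk5.mkStmt _) Tm38.As.asm) enq enr en.some L an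

end Crest.Agent.X212.Top0
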