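import Crest.Agent.X212.H7.Main
import Crest.Agent.X212.St29.Chf_Mg
import Crest.Agent.X212.Hp13.HH

/-!
# Row 212: layer H, unconditionally
-/

set_option autoImplicit false

namespace Crest.Agent.X212.Top0

/-- **layer H** -/
theorem hout : H7.HStmt := H7.hStmt Hel40.mainStmt (St29.smH Hp13.hH)

end Crest.Agent.X212.Top0
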